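import Vale.Agent.N024.Sharp

/-!
Uchida's homomorphism theorem for a class of fields which is strictly larger than the class of the
solvably closed fields, and an example which shows that the condition on roots in this class cannot
be dropped.
-/

namespace Vale.Agent.Results.P024.A0RootClosed

universe u₁ u₂ u₃ u₄

/-- `E` has no nontrivial abelian algebraic extension. -/
def IsSolvablyClosed (E : Type*) [Field E] : Prop :=
  ∀ M : IntermediateField E (AlgebraicClosure E), IsAbelianGalois E M → M = ⊥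

/-- `E` contains a subfield which is solvably closed. -/
def HasSolvablyClosedSubfield (E : Type*) [Field E] : Prop :=
  ∃ S : Subfield E, IsSolvablyClosed S

/-- Every element of `E` is an `l`-th power in `E`. -/
def RootClosed (l : ℕ) (E : Type*) [Field E] : Prop :=
  ∀ x : E, ∃ y : E, y ^ l = x

section

variable (F₁ E₁ F₂ E₂ : Type*) [Field F₁] [Field E₁] [Algebra F₁ E₁] [Field F₂] [Field E₂]
  [Algebra F₂ E₂]

/-- Every continuous homomorphism `α` of the Galois groups with open image is induced by exactly one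
field embedding `j : E₂ → E₁`, that is `g ∘ j = j ∘ α(g)` for all `g`. -/
def OpenHomsInduced : Prop :=
  ∀ α : (E₁ ≃ₐ[F₁] E₁) →* (E₂ ≃ₐ[F₂] E₂), Continuous α → IsOpen (Set.range α) →
    ∃! j : E₂ →+* E₁, ∀ (g : E₁ ≃ₐ[F₁] E₁) (x : E₂), g (j x) = j (α g x)

/-- There is a continuous bijective homomorphism of the Galois groups. -/
def GroupsIsomorphic : Prop :=
  ∃ α : (E₁ ≃ₐ[F₁] E₁) →* (E₂ ≃ₐ[F₂] E₂), Continuous α ∧ Function.Bijective α

end

theorem isSolvablyClosed_iff (E : Type*) [Field E] :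
    IsSolvablyClosed E ↔ Vale.Agent.P024.SolvablyClosed E :=
  ⟨Vale.Agent.P024.solvablyClosed_of_isAbelianGalois,
    fun h M hM => h M hM.toIsGalois fun s t => hM.is_comm.comm s t⟩

/-- (1) Open homomorphisms are induced by field embeddings for an arbitrary Galois extension
`E₁ / F₁` and every Galois extension `E₂ / F₂` which contains a solvably closed subfield and is
closed under `l`-th roots for one odd prime `l`. (2) For every `l > 0` there are such fields `E₂`
which are not solvably closed. (3) The condition on roots cannot be dropped, even for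
isomorphisms. -/
theorem result :
    (∀ (F₁ : Type u₁) (E₁ : Type u₂) (F₂ : Type u₃) (E₂ : Type u₄) [Field F₁] [NumberField F₁]
      [Field E₁] [Algebra F₁ E₁] [IsGalois F₁ E₁] [Field F₂] [NumberField F₂] [Field E₂]
      [Algebra F₂ E₂] [IsGalois F₂ E₂] (l : ℕ), l.Prime → l ≠ 2 →
      HasSolvablyClosedSubfield E₂ → RootClosed l E₂ → OpenHomsInduced F₁ E₁ F₂ E₂) ∧
    (∀ l : ℕ, 0 < l → ∃ (F E : Type) (_ : Field F) (_ : NumberField F) (_ : Field E)
      (_ : Algebra F E) (_ : IsGalois F E),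
      HasSolvablyClosedSubfield E ∧ RootClosed l E ∧ ¬ IsSolvablyClosed E) ∧
    (∃ (F₁ E₁ F₂ E₂ : Type) (_ : Field F₁) (_ : NumberField F₁) (_ : Field E₁) (_ : Algebra F₁ E₁)
      (_ : IsGalois F₁ E₁) (_ : Field F₂) (_ : NumberField F₂) (_ : Field E₂) (_ : Algebra F₂ E₂)
      (_ : IsGalois F₂ E₂), IsSolvablyClosed E₁ ∧ HasSolvablyClosedSubfield E₂ ∧
      IsEmpty (E₂ →+* E₁) ∧ GroupsIsomorphic F₁ E₁ F₂ E₂) := by
  refine ⟨?_, ?_, ?_⟩
  · rintro F₁ E₁ F₂ E₂ _ _ _ _ _ _ _ _ _ _ l hl hl2 ⟨S, hS⟩ hroot α hα hopen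
    have hc₂ : CharZero E₂ := charZero_of_injective_algebraMap (algebraMap F₂ E₂).injective
    exact Vale.Agent.N024.wide hl hl2
      (Vale.Agent.N024.hasQS_of_subfield S ((isSolvablyClosed_iff S).1 hS)) hroot α hα hopen
  · intro l hl
    obtain ⟨F, E, i₁, i₂, i₃, i₄, i₅, ⟨S, hS⟩, hroot, hns⟩ := Vale.Agent.N024.larger l hl
    exact ⟨F, E, i₁, i₂, i₃, i₄, i₅, ⟨S, (isSolvablyClosed_iff S).2 hS⟩, hroot,
      fun h => hns ((isSolvablyClosed_iff E).1 h)⟩
  · obtain ⟨F₁, E₁, F₂, E₂, i₁, i₂, i₃, i₄, i₅, i₆, i₇, i₈, i₉, i₁₀, h₁, ⟨S, hS⟩, hemp, h⟩ :=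
      Vale.Agent.N024.sharp
    exact ⟨F₁, E₁, F₂, E₂, i₁, i₂, i₃, i₄, i₅, i₆, i₇, i₈, i₉, i₁₀,
      (isSolvablyClosed_iff E₁).2 h₁, ⟨S, (isSolvablyClosed_iff S).2 hS⟩, hemp, h⟩

end Vale.Agent.Results.P024.A0RootClosed
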